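import Vale.Agent.P327.Borel.Finish
import Vale.Agent.P327.Borel.Compute
import Vale.Agent.P327.Repr.Main

/-! Rigidity of the Turing degrees. -/

namespace Vale.Agent.Results.P327.Rigidity

open Vale.Agent.P327 Vale.Agent.P327.Borel

/-- Every automorphism of the partial order of the Turing degrees of subsets of `ℕ` is the
identity. -/
theorem result
    (π : {d : TuringDegree // ∃ x : ℕ → Bool, d = toAntisymmetrization TuringReducible
        (fun n => Part.some (if x n then 1 else 0))} ≃o
      {d : TuringDegree // ∃ x : ℕ → Bool, d = toAntisymmetrization TuringReducible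
        (fun n => Part.some (if x n then 1 else 0))}) :
    π = OrderIso.refl _ := by
  refine orderIso_eq_refl (fun f hf x => trivial_of_forall_le (fun F hF u => ?_) hf x) π
  obtain ⟨G, hG, hGF, C, hCr, hC⟩ := exists_rep_bp hF
  exact (le_image hCr hC hG u).trans (hGF u).1

end Vale.Agent.Results.P327.Rigidity
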